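import Vale.Agent.P281.Stmt
import Vale.Agent.P281.Maps
import Vale.Agent.P278.Stmt
import Vale.Agent.P281.Big
import Vale.Agent.P272.Main

open Vale.Agent.P271.Stmt Vale.Agent.P281

theorem Vale.Agent.Results.P281.Hyperbolic.result (n m k : ℕ) (hn : 1 ≤ n)
    (Z : Type) [TopologicalSpace Z] [ChartedSpace (Fin n → ℂ) Z] (hZ : IsCM (Fin n → ℂ) Z)
    (h : Vale.Agent.P278S.FormField (Fin n → ℂ) Z) (hK : Vale.Agent.P278S.IsKaehler h)
    (hB : Brody (Fin n → ℂ) Z)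
    (X : Type) [TopologicalSpace X] [ChartedSpace (Fin n → ℂ) X] (hX : IsCM (Fin n → ℂ) X)
    (g : X → Z) (hg : HolMap (Fin n → ℂ) (Fin n → ℂ) g)
    (hg' : ∃ x, ImmAt (Fin n → ℂ) (Fin n → ℂ) g x)
    (Y : Type) [TopologicalSpace Y] [ChartedSpace (Fin m → ℂ) Y] (_ : IsCM (Fin m → ℂ) Y)
    (f : X → Y) (hf : HolMap (Fin n → ℂ) (Fin m → ℂ) f) (y : Y)
    (hy : ∀ x, f x = y → SubmAt (Fin n → ℂ) (Fin m → ℂ) f x)
    (F : Type) [TopologicalSpace F] [ChartedSpace (Fin k → ℂ) F] (hF' : IsCM (Fin k → ℂ) F)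
    (j : F → X) (hj : HolMap (Fin k → ℂ) (Fin n → ℂ) j) (_ : Function.Injective j)
    (hj' : ∀ p, ImmAt (Fin k → ℂ) (Fin n → ℂ) j p) (hF : Set.range j = f ⁻¹' {y}) :
    kappa k (canonical k F) + kappa m (canonical m Y) ≤ kappa n (canonical n X) ∧
    ∀ (N : ℕ) (D : Cocycle X) (σ : D.ι → X → ℂ), 0 < N → IsLineBundle n D → IsSection n D σ →
      (∃ i, ∃ p ∈ D.U i, σ i p ≠ 0) →
      kappa n (tensor (power (canonical n X) N) D) = ((n : ℕ∞) : WithBot ℕ∞) ∧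
      ∀ (L : Cocycle F) (Y' : Type) [TopologicalSpace Y'] [ChartedSpace (Fin m → ℂ) Y']
        (L' : Cocycle Y'), IsLineBundle k L → IsLineBundle m L' →
        kappa k L + kappa m L' ≤ kappa n (tensor (power (canonical n X) N) D) := by
  obtain ⟨_, _, _, _⟩ := hZ
  obtain ⟨_, _, _, _⟩ := hX
  obtain ⟨_, _, _, _⟩ := hF'
  have hA := Vale.Agent.P272.main n hn Z h hK hB
  obtain ⟨x, hx⟩ := hg'
  obtain ⟨p⟩ : Nonempty F := inferInstance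
  have h0 : ∀ q, f (j q) = y := fun q => (hF.le ⟨q, rfl⟩ : j q ∈ f ⁻¹' {y})
  have h1 := dim_add hf hj h0 (hy _ (h0 p)) (hj' p)
  have h2 : ((k : ℕ∞) : WithBot ℕ∞) + ((m : ℕ∞) : WithBot ℕ∞) ≤ ((n : ℕ∞) : WithBot ℕ∞) := by
    exact_mod_cast h1
  refine ⟨?_, fun N D σ hN hD hσ h3 => ⟨kappa_pair hg hx hA hN hD hσ h3, fun L Y' _ _ L' _ _ => ?_⟩⟩
  · rw [kappa_canonical hg hx hA]
    exact (add_le_add (kappa_le _) (kappa_le _)).trans h2
  · rw [kappa_pair hg hx hA hN hD hσ h3]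
    exact (add_le_add (kappa_le _) (kappa_le _)).trans h2
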